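import Mathlib

/-! The frequency lemma: a barrier for the Rayleigh quotient along `φ' = -A φ + ρ + c φ`. -/

set_option autoImplicit false

noncomputable section

namespace Frq23

open Set MeasureTheory intervalIntegral
open scoped RealInnerProductSpace

/-- a tent -/
def tent (δ σ s : ℝ) : ℝ := max 0 (2 - |s - σ| / δ)

theorem tent_cont (δ σ : ℝ) : Continuous (tent δ σ) := by unfold tent; fun_prop

theorem tent_int {δ : ℝ} (hδ : 0 < δ) (σ a b : ℝ) (hab : a ≤ b) :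
    ∫ s in a..b, tent δ σ s ≤ 8 * δ := by
  have hi : Integrable ((Icc (σ - 2 * δ) (σ + 2 * δ)).indicator fun _ => (2 : ℝ)) :=
    (integrable_indicator_iff measurableSet_Icc).2 (integrableOn_const (by simp))
  calc ∫ s in a..b, tent δ σ s
      ≤ ∫ s in a..b, (Icc (σ - 2 * δ) (σ + 2 * δ)).indicator (fun _ => (2 : ℝ)) s := by
        refine integral_mono_on hab ((tent_cont δ σ).intervalIntegrable _ _) hi.intervalIntegrable
          fun s _ => ?_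
        by_cases h : s ∈ Icc (σ - 2 * δ) (σ + 2 * δ)
        · rw [indicator_of_mem h]
          exact max_le (by norm_num) (sub_le_self _ (by positivity))
        · rw [indicator_of_notMem h]
          refine max_le le_rfl (sub_nonpos.2 ((le_div_iff₀ hδ).2 (not_lt.1 fun e => h ?_)))
          rw [abs_lt] at e
          exact ⟨by linarith [e.1], by linarith [e.2]⟩
    _ ≤ ∫ s, (Icc (σ - 2 * δ) (σ + 2 * δ)).indicator (fun _ => (2 : ℝ)) s := by
        rw [integral_of_le hab]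
        exact setIntegral_le_integral hi
          (Filter.Eventually.of_forall fun s => indicator_nonneg (fun _ _ => by norm_num) s)
    _ = 8 * δ := by
        rw [MeasureTheory.integral_indicator measurableSet_Icc, setIntegral_const,
          Real.volume_real_Icc_of_le (by linarith), smul_eq_mul]
        ring

/-- the scalar barrier -/
theorem barrier {Λ C M δ a b : ℝ} (hΛ : 0 ≤ Λ) (hC : 0 ≤ C) (hM : Real.exp (C + 3) * (1 + Λ) ≤ M)
    (S : Finset ℝ) (hδ : 0 < δ) (hS : 8 * δ * S.card ≤ 1) {N N' g : ℝ → ℝ} (hab : a ≤ b)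
    (hN : ∀ t ∈ Icc a b, HasDerivAt N (N' t) t) (hg : IntegrableOn g (Icc a b))
    (hg0 : ∀ t ∈ Icc a b, 0 ≤ g t) (hgC : ∫ t in a..b, g t ≤ C)
    (h : ∀ t ∈ Icc a b, 0 ≤ N t → N t ≤ M + 1 → (∀ σ ∈ S, δ ≤ |N t - σ|) → N' t ≤ g t * (1 + N t))
    (h0 : N a ≤ Λ) : N b ≤ M := by
  let u : ℝ → ℝ := fun s => max 0 (min s (min (M + 1 - s) (1 - ∑ σ ∈ S, tent δ σ s)))
  let f : ℝ → ℝ := fun s => u s / (1 + |s|)
  have tc : Continuous fun s => ∑ σ ∈ S, tent δ σ s := continuous_finsetSum _ fun σ _ => tent_cont δ σ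
  have t0 : ∀ s, 0 ≤ ∑ σ ∈ S, tent δ σ s := fun s => Finset.sum_nonneg fun σ _ => le_max_left _ _
  have fc : Continuous f := Continuous.div (by fun_prop) (by fun_prop) fun s => by positivity
  have u0 : ∀ s, 0 ≤ u s := fun s => le_max_left _ _
  have u1 : ∀ s, u s ≤ 1 := fun s => max_le zero_le_one
    ((min_le_right _ _).trans ((min_le_right _ _).trans (sub_le_self _ (t0 s))))
  have f0 : ∀ s, 0 ≤ f s := fun s => div_nonneg (u0 s) (by positivity)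
  let G : ℝ → ℝ := fun ν => ∫ s in (0 : ℝ)..ν, f s
  have hG : ∀ ν, HasDerivAt G (f ν) ν := fun ν => (fc.integral_hasStrictDerivAt 0 ν).hasDerivAt
  have Gm : Monotone G := monotone_of_hasDerivAt_nonneg hG f0
  have h1 : G (N b) - G (N a) ≤ ∫ t in a..b, g t := by
    refine sub_le_integral_of_hasDeriv_right_of_le (g := fun t => G (N t))
      (g' := fun t => f (N t) * N' t) hab
      (fun t ht => ((hG _).comp t (hN t ht)).continuousAt.continuousWithinAt)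
      (fun t ht => ((hG _).comp t (hN t (Ioo_subset_Icc_self ht))).hasDerivWithinAt) hg
      fun t ht => ?_
    have ht' := Ioo_subset_Icc_self ht
    rcases (u0 (N t)).eq_or_lt with e | e
    · simp only [f, ← e, zero_div, zero_mul]; exact hg0 t ht'
    simp only [u, lt_max_iff, lt_irrefl, false_or, lt_min_iff] at e
    obtain ⟨e1, e2, e3⟩ := e
    have := h t ht' e1.le (by linarith) fun σ hσ => by
      have a1 : tent δ σ (N t) ≤ ∑ σ ∈ S, tent δ σ (N t) :=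
        Finset.single_le_sum (f := fun σ => tent δ σ (N t)) (fun σ _ => le_max_left _ _) hσ
      have a2 : 2 - |N t - σ| / δ ≤ tent δ σ (N t) := le_max_right _ _
      have a3 : 1 ≤ |N t - σ| / δ := by linarith
      rwa [le_div_iff₀ hδ, one_mul] at a3
    calc f (N t) * N' t ≤ f (N t) * (g t * (1 + N t)) := mul_le_mul_of_nonneg_left this (f0 _)
      _ = u (N t) * g t := by simp only [f, abs_of_pos e1]; field_simp
      _ ≤ 1 * g t := mul_le_mul_of_nonneg_right (u1 _) (hg0 t ht')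
      _ = g t := one_mul _
  have li : ∀ x y : ℝ, 0 ≤ x → x ≤ y → ∫ s in x..y, 1 / (1 + s) = Real.log (1 + y) - Real.log (1 + x) := by
    intro x y hx hxy
    rw [intervalIntegral.integral_comp_add_left (fun s : ℝ => 1 / s) 1,
      integral_one_div_of_pos (by linarith) (by linarith), Real.log_div (by linarith) (by linarith)]
  have ii : ∀ x y : ℝ, 0 ≤ x → x ≤ y → IntervalIntegrable (fun s : ℝ => 1 / (1 + s)) volume x y := by
    intro x y hx hxy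
    refine ContinuousOn.intervalIntegrable (ContinuousOn.div (by fun_prop) (by fun_prop) fun s hs => ?_)
    rw [uIcc_of_le hxy] at hs
    linarith [hs.1]
  have h2 : G Λ ≤ Real.log (1 + Λ) := by
    have := integral_mono_on hΛ (fc.intervalIntegrable _ _) (ii 0 Λ le_rfl hΛ) fun s hs => by
      simp only [f, abs_of_nonneg hs.1]
      have := hs.1
      gcongr; exact u1 s
    rw [li 0 Λ le_rfl hΛ] at this
    simpa using this
  have hE : C + 3 + 1 ≤ Real.exp (C + 3) := Real.add_one_le_exp _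
  have hM1 : 1 ≤ M := by nlinarith
  have h3 : Real.log (1 + M) - Real.log (1 + 1) - 1 ≤ G M := by
    have a1 : G M = G 1 + ∫ s in (1 : ℝ)..M, f s :=
      (integral_add_adjacent_intervals (fc.intervalIntegrable _ _) (fc.intervalIntegrable _ _)).symm
    have a2 : 0 ≤ G 1 := integral_nonneg zero_le_one fun s _ => f0 s
    have a3 := integral_mono_on hM1 ((ii 1 M zero_le_one hM1).sub (tc.intervalIntegrable _ _))
      (fc.intervalIntegrable _ _) fun s hs => by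
        have b1 : 1 - ∑ σ ∈ S, tent δ σ s ≤ u s := le_max_of_le_right
          (le_min (by linarith [hs.1, t0 s]) (le_min (by linarith [hs.2, t0 s]) le_rfl))
        have b2 := hs.1
        have b3 : (∑ σ ∈ S, tent δ σ s) / (1 + s) ≤ ∑ σ ∈ S, tent δ σ s :=
          div_le_self (t0 s) (by linarith)
        simp only [f, abs_of_nonneg (zero_le_one.trans b2)]
        calc _ ≤ (1 - ∑ σ ∈ S, tent δ σ s) / (1 + s) := by rw [sub_div]; linarith
          _ ≤ _ := by gcongr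
    rw [integral_sub (ii 1 M zero_le_one hM1) (tc.intervalIntegrable _ _), li 1 M zero_le_one hM1,
      integral_finsetSum fun σ _ => (tent_cont δ σ).intervalIntegrable _ _] at a3
    have a4 : ∑ σ ∈ S, ∫ s in (1 : ℝ)..M, tent δ σ s ≤ ∑ _σ ∈ S, 8 * δ :=
      Finset.sum_le_sum fun σ _ => tent_int hδ σ 1 M hM1
    rw [Finset.sum_const, nsmul_eq_mul] at a4
    linarith
  by_contra hc
  have h4 := Gm (not_le.1 hc).le
  have h5 := Gm h0
  have h6 : C + 3 + Real.log (1 + Λ) ≤ Real.log (1 + M) := by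
    rw [← Real.log_exp (C + 3), ← Real.log_mul (by positivity) (by positivity)]
    exact Real.log_le_log (by positivity) (by linarith)
  have h7 : Real.log (1 + 1) ≤ 1 + 1 - 1 := Real.log_le_sub_one_of_pos (by norm_num)
  linarith

variable {E : Type*} [NormedAddCommGroup E] [InnerProductSpace ℝ E]

/-- the Rayleigh quotient -/
def ray (ψ φ : E) : ℝ := ⟪ψ, φ⟫ / ‖φ‖ ^ 2

theorem inner_ray {ψ φ : E} (h : φ ≠ 0) : ⟪ψ - ray ψ φ • φ, φ⟫ = 0 := by
  have : ‖φ‖ ≠ 0 := norm_ne_zero_iff.2 h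
  rw [inner_sub_left, real_inner_smul_left, real_inner_self_eq_norm_sq, ray]
  field_simp; ring

/-- the derivative of the Rayleigh quotient: `c` drops out -/
theorem ray_deriv {φ ψ : ℝ → E} {ρ : E} {c t : ℝ} (h0 : φ t ≠ 0)
    (h1 : HasDerivAt φ (-ψ t + ρ + c • φ t) t)
    (h2 : HasDerivAt (fun s => ⟪ψ s, φ s⟫) (2 * ⟪ψ t, -ψ t + ρ + c • φ t⟫) t) :
    HasDerivAt (fun s => ray (ψ s) (φ s))
      (2 * (⟪ψ t - ray (ψ t) (φ t) • φ t, ρ⟫ - ‖ψ t - ray (ψ t) (φ t) • φ t‖ ^ 2) / ‖φ t‖ ^ 2) t := by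
  have hn : ‖φ t‖ ≠ 0 := norm_ne_zero_iff.2 h0
  have h3 := h2.div h1.norm_sq (pow_ne_zero 2 hn)
  refine h3.congr_deriv ?_
  have e := inner_ray (ψ := ψ t) h0
  have e1 : ⟪ψ t, φ t⟫ = ray (ψ t) (φ t) * ‖φ t‖ ^ 2 := by rw [ray]; field_simp
  set w := ψ t - ray (ψ t) (φ t) • φ t with hw
  have e2 : ⟪w, -ψ t + ρ + c • φ t⟫ = ⟪w, ρ⟫ - ‖w‖ ^ 2 := by
    rw [show -ψ t + ρ + c • φ t = ρ - w + (c - ray (ψ t) (φ t)) • φ t by rw [hw, sub_smul]; abel,
      inner_add_right, real_inner_smul_right, e, inner_sub_right, real_inner_self_eq_norm_sq]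
    ring
  rw [← e2, e1, hw, inner_sub_left, real_inner_smul_left]
  field_simp

theorem ray_le {φ ψ ρ : E} (h0 : φ ≠ 0) {κ : ℝ} (hκ : 0 ≤ κ) (hN : 0 ≤ ray ψ φ)
    (hρ : ‖ρ‖ ^ 2 ≤ κ * (‖φ‖ * (‖φ‖ + ‖ψ‖))) :
    2 * (⟪ψ - ray ψ φ • φ, ρ⟫ - ‖ψ - ray ψ φ • φ‖ ^ 2) / ‖φ‖ ^ 2
      ≤ -(‖ψ - ray ψ φ • φ‖ / ‖φ‖) ^ 2 / 2 + κ * (1 + ray ψ φ) + κ ^ 2 / 2 := by
  have hn : 0 < ‖φ‖ := norm_pos_iff.2 h0
  have e1 : ‖ψ‖ ≤ ‖ψ - ray ψ φ • φ‖ + ray ψ φ * ‖φ‖ := by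
    have := norm_add_le (ψ - ray ψ φ • φ) (ray ψ φ • φ)
    rwa [sub_add_cancel, norm_smul, Real.norm_of_nonneg hN] at this
  have e2 := real_inner_le_norm (ψ - ray ψ φ • φ) ρ
  generalize ⟪ψ - ray ψ φ • φ, ρ⟫ = i at *
  generalize ‖ψ - ray ψ φ • φ‖ = x at *
  generalize ray ψ φ = N at *
  have e3 : ‖ρ‖ ^ 2 ≤ κ * (‖φ‖ * (‖φ‖ + (x + N * ‖φ‖))) := hρ.trans (by gcongr)
  rw [div_le_iff₀ (by positivity)]
  have e4 : (-(x / ‖φ‖) ^ 2 / 2 + κ * (1 + N) + κ ^ 2 / 2) * ‖φ‖ ^ 2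
      = -x ^ 2 / 2 + κ * (1 + N) * ‖φ‖ ^ 2 + (κ * ‖φ‖) ^ 2 / 2 := by field_simp
  rw [e4]
  nlinarith [sq_nonneg (x - ‖ρ‖), sq_nonneg (x - κ * ‖φ‖)]

/-- FREQ: the bound `M` depends on `Λ` and `C` only; `ε` is chosen after the finite part `S` of the
spectrum -/
theorem freq {Λ C M : ℝ} (hΛ : 0 ≤ Λ) (hC : 0 ≤ C) (hM : Real.exp (C + 3) * (1 + Λ) ≤ M)
    (S : Finset ℝ) : ∃ ε0 > 0, ∀ ε, 0 ≤ ε → ε ≤ ε0 → ∀ (φ ψ ρ : ℝ → E) (c r : ℝ → ℝ) (a b : ℝ), a ≤ b →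
    (∀ t ∈ Icc a b, φ t ≠ 0) →
    (∀ t ∈ Icc a b, HasDerivAt φ (-ψ t + ρ t + c t • φ t) t) →
    (∀ t ∈ Icc a b, HasDerivAt (fun s => ⟪ψ s, φ s⟫) (2 * ⟪ψ t, -ψ t + ρ t + c t • φ t⟫) t) →
    (∀ t ∈ Icc a b, 0 ≤ r t ∧ ‖ρ t‖ ^ 2 ≤ (ε + r t) * (‖φ t‖ * (‖φ t‖ + ‖ψ t‖))) →
    IntegrableOn (fun t => r t + r t ^ 2) (Icc a b) → ∫ t in a..b, (r t + r t ^ 2) ≤ C →
    (∀ t ∈ Icc a b, ∀ ν δ, 0 ≤ ν → ν ≤ M + 1 → 0 < δ → δ ≤ 1 → (∀ σ ∈ S, δ ≤ |ν - σ|) →
      δ * ‖φ t‖ ≤ ‖ψ t - ν • φ t‖) →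
    ray (ψ a) (φ a) ≤ Λ → ray (ψ b) (φ b) ≤ M := by
  have hM0 : 0 ≤ M := le_trans (by positivity) hM
  let δ : ℝ := 1 / (8 * (S.card + 1))
  have hδ : 0 < δ := by positivity
  have hδ1 : δ ≤ 1 := (div_le_one (by positivity)).2 (by linarith [S.card.cast_nonneg (α := ℝ)])
  have hS : 8 * δ * S.card ≤ 1 := by
    rw [show 8 * δ * S.card = S.card / (S.card + 1) by simp only [δ]; field_simp]
    exact (div_le_one (by positivity)).2 (by linarith)
  refine ⟨min 1 (δ ^ 2 / (2 * (M + 3))), by positivity, ?_⟩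
  intro ε e0 e1 φ ψ ρ c r a b hab h0 h1 h2 h3 h4 h5 h6 h7
  refine barrier (N := fun s => ray (ψ s) (φ s)) (g := fun t => r t + r t ^ 2) hΛ hC hM S hδ hS hab (fun t ht => ray_deriv (h0 t ht) (h1 t ht) (h2 t ht)) h4
    (fun t ht => by have := (h3 t ht).1; positivity) h5 (fun t ht n0 n1 n2 => ?_) h7
  have r0 := (h3 t ht).1
  refine (ray_le (h0 t ht) (add_nonneg e0 r0) n0 (h3 t ht).2).trans ?_
  have a1 : δ ≤ ‖ψ t - ray (ψ t) (φ t) • φ t‖ / ‖φ t‖ :=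
    (le_div_iff₀ (norm_pos_iff.2 (h0 t ht))).2 (h6 t ht _ δ n0 n1 hδ hδ1 n2)
  have a2 : δ ^ 2 ≤ (‖ψ t - ray (ψ t) (φ t) • φ t‖ / ‖φ t‖) ^ 2 := by gcongr
  have a3 : ε * (2 * (M + 3)) ≤ δ ^ 2 := (le_div_iff₀ (by positivity)).1 (e1.trans (min_le_right _ _))
  have a4 : ε * ε ≤ ε * 1 := by gcongr; exact e1.trans (min_le_left _ _)
  have a5 : ε * ray (ψ t) (φ t) ≤ ε * (M + 1) := by gcongr
  have a6 : 0 ≤ r t ^ 2 * ray (ψ t) (φ t) := by positivity
  nlinarith [sq_nonneg (ε - r t)]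

end Frq23
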